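import Mathlib

/-!
# P022: an integral basis `1, ω` of a quadratic field and its discriminant
-/

open NumberField Module

namespace Vale.Agent.P022.H724

variable {K : Type*} [Field K] [NumberField K]

/-- `ω` together with `1` is a basis of the ring of integers, `ω² = p + q ω`. -/
structure QB (K : Type*) [Field K] [NumberField K] where
  ω : 𝓞 K
  p : ℤ
  q : ℤ
  rel : ω * ω = (p : 𝓞 K) + (q : 𝓞 K) * ω
  gen : ∀ x : 𝓞 K, ∃ a b : ℤ, x = (a : 𝓞 K) + (b : 𝓞 K) * ω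
  ind : ∀ a b : ℤ, (a : 𝓞 K) + (b : 𝓞 K) * ω = 0 → a = 0 ∧ b = 0

theorem exists_qb (h2 : finrank ℚ K = 2) : Nonempty (QB K) := by
  have hc : Fintype.card (Free.ChooseBasisIndex ℤ (𝓞 K)) = 2 := by
    rw [← finrank_eq_card_chooseBasisIndex, RingOfIntegers.rank, h2]
  let e : Free.ChooseBasisIndex ℤ (𝓞 K) ≃ Fin 2 := Fintype.equivFinOfCardEq hc
  let b : Basis (Fin 2) ℤ (𝓞 K) := (RingOfIntegers.basis K).reindex e
  have hx : ∀ x : 𝓞 K, x = (b.repr x 0 : 𝓞 K) * b 0 + (b.repr x 1 : 𝓞 K) * b 1 := by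
    intro x
    have := b.sum_repr x
    rw [Fin.sum_univ_two] at this
    rw [← zsmul_eq_mul, ← zsmul_eq_mul]
    exact this.symm
  have hind : ∀ s r : ℤ, (s : 𝓞 K) * b 0 + (r : 𝓞 K) * b 1 = 0 → s = 0 ∧ r = 0 := by
    intro s r h
    have hl := Fintype.linearIndependent_iff.mp b.linearIndependent ![s, r]
    rw [Fin.sum_univ_two] at hl
    have h' := hl (by simpa [zsmul_eq_mul] using h)
    exact ⟨h' 0, h' 1⟩
  have huni : ∀ s r s' r' : ℤ, (s : 𝓞 K) * b 0 + (r : 𝓞 K) * b 1 =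
      (s' : 𝓞 K) * b 0 + (r' : 𝓞 K) * b 1 → s = s' ∧ r = r' := by
    intro s r s' r' h
    have := hind (s - s') (r - r') (by push_cast; linear_combination h)
    omega
  obtain ⟨a, c, hac⟩ : ∃ a c : ℤ, (1 : 𝓞 K) = (a : 𝓞 K) * b 0 + (c : 𝓞 K) * b 1 := ⟨_, _, hx 1⟩
  have hcop : IsCoprime a c := by
    rw [Int.isCoprime_iff_gcd_eq_one]
    obtain ⟨a', ha'⟩ := Int.gcd_dvd_left a c
    obtain ⟨c', hc'⟩ := Int.gcd_dvd_right a c
    set g : ℤ := (Int.gcd a c : ℤ) with hg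
    have h1 : (1 : 𝓞 K) = (g : 𝓞 K) * ((a' : 𝓞 K) * b 0 + (c' : 𝓞 K) * b 1) := by
      rw [hac]
      rw [ha', hc']
      push_cast
      ring
    set y : 𝓞 K := (a' : 𝓞 K) * b 0 + (c' : 𝓞 K) * b 1 with hy
    have h3 := hx (y * b 0)
    have h4 : ((1 : ℤ) : 𝓞 K) * b 0 + ((0 : ℤ) : 𝓞 K) * b 1 =
        ((g * b.repr (y * b 0) 0 : ℤ) : 𝓞 K) * b 0 + ((g * b.repr (y * b 0) 1 : ℤ) : 𝓞 K) * b 1 := by
      have : ((1 : ℤ) : 𝓞 K) * b 0 + ((0 : ℤ) : 𝓞 K) * b 1 = (g : 𝓞 K) * (y * b 0) := by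
        push_cast
        linear_combination h1 * b 0
      rw [this]
      conv_lhs => rw [h3]
      push_cast
      ring
    have h5 := (huni _ _ _ _ h4).1
    have h6 : (Int.gcd a c : ℤ) ∣ 1 := ⟨_, h5⟩
    have h7 : (Int.gcd a c) ∣ 1 := by exact_mod_cast h6
    exact Nat.dvd_one.mp h7
  obtain ⟨u, v, huv⟩ := hcop
  -- u * a + v * c = 1
  let ω : 𝓞 K := -(v : 𝓞 K) * b 0 + (u : 𝓞 K) * b 1
  have hgen : ∀ x : 𝓞 K, ∃ s r : ℤ, x = (s : 𝓞 K) + (r : 𝓞 K) * ω := by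
    intro x
    refine ⟨u * b.repr x 0 + v * b.repr x 1, a * b.repr x 1 - c * b.repr x 0, ?_⟩
    have huv' : (u : 𝓞 K) * a + v * c = 1 := by exact_mod_cast huv
    have h1 := hx x
    conv_lhs => rw [h1]
    have e1 : (((u * b.repr x 0 + v * b.repr x 1 : ℤ)) : 𝓞 K) =
        ((u * b.repr x 0 + v * b.repr x 1 : ℤ) : 𝓞 K) * ((a : 𝓞 K) * b 0 + (c : 𝓞 K) * b 1) := by
      rw [← hac, mul_one]
    rw [e1]
    show _ = _ + _ * (-(v : 𝓞 K) * b 0 + (u : 𝓞 K) * b 1)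
    push_cast
    linear_combination (-(b.repr x 0 : 𝓞 K) * b 0 - (b.repr x 1 : 𝓞 K) * b 1) * huv'
  have hI : ∀ s r : ℤ, (s : 𝓞 K) + (r : 𝓞 K) * ω = 0 → s = 0 ∧ r = 0 := by
    intro s r h
    have h1 : ((s * a - r * v : ℤ) : 𝓞 K) * b 0 + ((s * c + r * u : ℤ) : 𝓞 K) * b 1 = 0 := by
      have : (s : 𝓞 K) = (s : 𝓞 K) * ((a : 𝓞 K) * b 0 + (c : 𝓞 K) * b 1) := by
        rw [← hac, mul_one]
      rw [this] at h
      rw [← h]
      show _ = _ + _ * (-(v : 𝓞 K) * b 0 + (u : 𝓞 K) * b 1)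
      push_cast
      ring
    obtain ⟨h2, h3⟩ := hind _ _ h1
    constructor
    · have : s * (u * a + v * c) = 0 := by linear_combination u * h2 + v * h3
      rwa [huv, mul_one] at this
    · have : r * (u * a + v * c) = 0 := by linear_combination a * h3 - c * h2
      rwa [huv, mul_one] at this
  obtain ⟨p, q, hpq⟩ := hgen (ω * ω)
  exact ⟨⟨ω, p, q, hpq, hgen, hI⟩⟩

namespace QB

variable (B : QB K)

/-- The basis `1, ω`. -/
noncomputable def basis : Basis (Fin 2) ℤ (𝓞 K) :=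
  Basis.mk (v := ![(1 : 𝓞 K), B.ω])
    (by
      rw [Fintype.linearIndependent_iff]
      intro g hg
      rw [Fin.sum_univ_two] at hg
      have := B.ind (g 0) (g 1) (by simpa [zsmul_eq_mul] using hg)
      intro i
      fin_cases i
      · exact this.1
      · exact this.2)
    (by
      intro x _
      obtain ⟨a, b, hab⟩ := B.gen x
      rw [hab, Matrix.range_cons, Matrix.range_cons, Matrix.range_empty, Set.union_empty,
        Set.singleton_union, Submodule.mem_span_pair]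
      exact ⟨a, b, by simp [zsmul_eq_mul]⟩)

theorem basis_zero : B.basis 0 = 1 := by simp [basis]

theorem basis_one : B.basis 1 = B.ω := by simp [basis]

theorem repr_eq (a b : ℤ) : B.basis.repr ((a : 𝓞 K) + (b : 𝓞 K) * B.ω) = Finsupp.single 0 a +
    Finsupp.single 1 b := by
  have : (a : 𝓞 K) + (b : 𝓞 K) * B.ω = a • B.basis 0 + b • B.basis 1 := by
    rw [basis_zero, basis_one]
    simp [zsmul_eq_mul]
  rw [this, map_add, map_zsmul, map_zsmul, Basis.repr_self, Basis.repr_self]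
  simp

theorem trace_eq (a b : ℤ) : Algebra.trace ℤ (𝓞 K) ((a : 𝓞 K) + (b : 𝓞 K) * B.ω) = 2 * a + B.q * b := by
  classical
  rw [Algebra.trace_eq_matrix_trace B.basis, Matrix.trace_fin_two, Algebra.leftMulMatrix_eq_repr_mul,
    Algebra.leftMulMatrix_eq_repr_mul, basis_zero, basis_one, mul_one, repr_eq]
  have : ((a : 𝓞 K) + (b : 𝓞 K) * B.ω) * B.ω = ((b * B.p : ℤ) : 𝓞 K) + ((a + b * B.q : ℤ) : 𝓞 K) * B.ω := by
    push_cast
    linear_combination (b : 𝓞 K) * B.rel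
  rw [this, repr_eq]
  simp
  ring

theorem norm_eq (a b : ℤ) : Algebra.norm ℤ ((a : 𝓞 K) + (b : 𝓞 K) * B.ω) = a ^ 2 + B.q * a * b - B.p * b ^ 2 := by
  classical
  rw [Algebra.norm_eq_matrix_det B.basis, Matrix.det_fin_two, Algebra.leftMulMatrix_eq_repr_mul,
    Algebra.leftMulMatrix_eq_repr_mul, Algebra.leftMulMatrix_eq_repr_mul,
    Algebra.leftMulMatrix_eq_repr_mul, basis_zero, basis_one, mul_one, repr_eq]
  have : ((a : 𝓞 K) + (b : 𝓞 K) * B.ω) * B.ω = ((b * B.p : ℤ) : 𝓞 K) + ((a + b * B.q : ℤ) : 𝓞 K) * B.ω := by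
    push_cast
    linear_combination (b : 𝓞 K) * B.rel
  rw [this, repr_eq]
  simp
  ring

theorem discr_eq : discr K = B.q ^ 2 + 4 * B.p := by
  classical
  rw [← NumberField.discr_eq_discr K B.basis, Algebra.discr_def, Matrix.det_fin_two]
  simp only [Algebra.traceMatrix_apply, Algebra.traceForm_apply, basis_zero, basis_one, mul_one,
    one_mul]
  have h1 : Algebra.trace ℤ (𝓞 K) (1 : 𝓞 K) = 2 := by
    have := B.trace_eq 1 0
    simpa using this
  have h2 : Algebra.trace ℤ (𝓞 K) B.ω = B.q := by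
    have := B.trace_eq 0 1
    simpa using this
  have h3 : Algebra.trace ℤ (𝓞 K) (B.ω * B.ω) = 2 * B.p + B.q ^ 2 := by
    rw [B.rel, B.trace_eq]
    ring
  rw [h1, h2, h3]
  ring

/-- `δ = 2ω - q`, a square root of the discriminant. -/
def δ : 𝓞 K := 2 * B.ω - B.q

theorem δ_sq : B.δ ^ 2 = (discr K : 𝓞 K) := by
  rw [B.discr_eq]
  unfold δ
  push_cast
  linear_combination 4 * B.rel

end QB

end Vale.Agent.P022.H724
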