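import Vale.Agent.P022.H724.Bas
import Vale.Agent.P022.H472.Lit

/-!
# P022 [JAC]: ideals of norm `ℓ` in a quadratic field
-/

open NumberField Module Ideal

namespace Vale.Agent.P022.H724

variable {K : Type*} [Field K] [NumberField K]

theorem mem_int {l : ℕ} [hl : Fact l.Prime] {p : Ideal (𝓞 K)} (hp : absNorm p = l) {n : ℤ}
    (hn : (n : 𝓞 K) ∈ p) : (l : ℤ) ∣ n := by
  by_contra h
  have hcop : IsCoprime (l : ℤ) n := by
    rw [Int.isCoprime_iff_gcd_eq_one]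
    have := (Nat.Prime.coprime_iff_not_dvd hl.out (n := n.natAbs)).mpr
      (fun h' => h (Int.natCast_dvd.mpr h'))
    simpa [Int.gcd] using this
  obtain ⟨u, v, huv⟩ := hcop
  have hmem : (l : 𝓞 K) ∈ p := by
    have := absNorm_mem p
    rwa [hp] at this
  have : (1 : 𝓞 K) ∈ p := by
    have h1 : (1 : 𝓞 K) = (u : 𝓞 K) * (l : 𝓞 K) + (v : 𝓞 K) * (n : 𝓞 K) := by
      exact_mod_cast huv.symm
    rw [h1]
    exact p.add_mem (p.mul_mem_left _ hmem) (p.mul_mem_left _ hn)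
  rw [← Ideal.eq_top_iff_one] at this
  rw [this, absNorm_top] at hp
  exact hl.out.one_lt.ne hp

/-- every integer of `K` is congruent to a rational integer modulo an ideal of prime norm -/
theorem exists_int {l : ℕ} [hl : Fact l.Prime] {p : Ideal (𝓞 K)} (hp : absNorm p = l)
    (x : 𝓞 K) : ∃ s : ℤ, x - (s : 𝓞 K) ∈ p := by
  have hcard : Nat.card (𝓞 K ⧸ p) = l := by rw [← hp, absNorm_apply, Submodule.cardQuot_apply]
  have : Finite (𝓞 K ⧸ p) := Nat.finite_of_card_ne_zero (by rw [hcard]; exact hl.out.ne_zero)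
  have hmem : (l : 𝓞 K) ∈ p := by
    have := absNorm_mem p
    rwa [hp] at this
  have hinj : Function.Injective (fun i : Fin l => Ideal.Quotient.mk p ((i : ℕ) : 𝓞 K)) := by
    intro i j hij
    have h1 : (((i : ℕ) : ℤ) - ((j : ℕ) : ℤ) : ℤ) = (((i : ℕ) : ℤ) - ((j : ℕ) : ℤ)) := rfl
    have h2 : (((((i : ℕ) : ℤ) - ((j : ℕ) : ℤ) : ℤ)) : 𝓞 K) ∈ p := by
      have := Ideal.Quotient.eq.mp hij
      push_cast
      exact this
    have h3 := mem_int hp h2
    have hi := i.isLt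
    have hj := j.isLt
    have h4 : (((i : ℕ) : ℤ) - ((j : ℕ) : ℤ)) = 0 := by
      apply Int.eq_zero_of_abs_lt_dvd h3
      rw [abs_lt]
      omega
    apply Fin.ext
    omega
  have hbij := hinj.bijective_of_nat_card_le (by rw [hcard, Nat.card_eq_fintype_card, Fintype.card_fin])
  obtain ⟨i, hi⟩ := hbij.2 (Ideal.Quotient.mk p x)
  refine ⟨((i : ℕ) : ℤ), ?_⟩
  have := Ideal.Quotient.eq.mp hi.symm
  push_cast
  exact this

namespace QB

variable (B : QB K)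

include B in
/-- an ideal of norm `ℓ` forces the discriminant to be a square mod `ℓ` -/
theorem exists_sq_of_norm {l : ℕ} [hl : Fact l.Prime] {p : Ideal (𝓞 K)} (hp : absNorm p = l) :
    ∃ s : ℤ, (l : ℤ) ∣ discr K - s ^ 2 := by
  obtain ⟨s, hs⟩ := exists_int hp B.δ
  refine ⟨s, mem_int hp ?_⟩
  have : ((discr K - s ^ 2 : ℤ) : 𝓞 K) = (B.δ + s) * (B.δ - s) := by
    push_cast
    rw [← B.δ_sq]
    ring
  rw [this]
  exact p.mul_mem_left _ hs

/-- `ℓ ∤ δ - s` -/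
theorem not_dvd {l : ℕ} [hl : Fact l.Prime] (h2 : l ≠ 2) (s : ℤ) : ¬ (l : 𝓞 K) ∣ B.δ - s := by
  rintro ⟨z, hz⟩
  obtain ⟨a, b, hab⟩ := B.gen z
  rw [hab] at hz
  have h := B.ind (-B.q - s - l * a) (2 - l * b) (by
    push_cast
    unfold δ at hz
    linear_combination hz)
  have h3 : (l : ℤ) ∣ 2 := ⟨b, by linarith [h.2]⟩
  have h4 : l ∣ 2 := by exact_mod_cast h3
  exact h2 ((Nat.prime_dvd_prime_iff_eq hl.out Nat.prime_two).mp h4)

/-- the prime `(ℓ, δ - s)` -/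
def pr (l : ℕ) (s : ℤ) : Ideal (𝓞 K) := span {(l : 𝓞 K), B.δ - s}

theorem pr_mul {l : ℕ} [hl : Fact l.Prime] (h2 : l ≠ 2) (hd : ¬ (l : ℤ) ∣ discr K) {s : ℤ}
    (hs : (l : ℤ) ∣ discr K - s ^ 2) : B.pr l s * B.pr l (-s) = span {(l : 𝓞 K)} := by
  have hls : ¬ (l : ℤ) ∣ 2 * s := by
    intro h
    have h' := (Int.prime_iff_natAbs_prime.mpr (by simpa using hl.out) : Prime (l : ℤ)).dvd_or_dvd h
    rcases h' with h' | h'
    · have h4 : l ∣ 2 := by exact_mod_cast h'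
      exact h2 ((Nat.prime_dvd_prime_iff_eq hl.out Nat.prime_two).mp h4)
    · apply hd
      have : discr K = (discr K - s ^ 2) + s * s := by ring
      rw [this]
      exact dvd_add hs (h'.mul_left s)
  have hcop : IsCoprime (l : ℤ) (2 * s) := by
    rw [Int.isCoprime_iff_gcd_eq_one]
    have := (Nat.Prime.coprime_iff_not_dvd hl.out (n := (2 * s).natAbs)).mpr
      (fun h' => hls (Int.natCast_dvd.mpr h'))
    simpa [Int.gcd] using this
  obtain ⟨u, v, huv⟩ := hcop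
  have huv' : (u : 𝓞 K) * (l : 𝓞 K) + (v : 𝓞 K) * (2 * (s : 𝓞 K)) = 1 := by exact_mod_cast huv
  obtain ⟨t, ht⟩ := hs
  have ht' : B.δ ^ 2 - (s : 𝓞 K) ^ 2 = (l : 𝓞 K) * (t : 𝓞 K) := by
    rw [B.δ_sq]
    exact_mod_cast ht
  apply le_antisymm
  · rw [pr, pr, Ideal.span_pair_mul_span_pair, Ideal.span_le]
    intro x hx
    rw [SetLike.mem_coe, Ideal.mem_span_singleton]
    rcases hx with rfl | rfl | rfl | rfl
    · exact dvd_mul_right _ _
    · exact dvd_mul_right _ _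
    · exact dvd_mul_left _ _
    · refine ⟨t, ?_⟩
      rw [← ht']
      push_cast
      ring
  · rw [Ideal.span_le, Set.singleton_subset_iff, SetLike.mem_coe]
    have e : (l : 𝓞 K) = (u : 𝓞 K) * ((l : 𝓞 K) * (l : 𝓞 K)) +
        (v : 𝓞 K) * ((l : 𝓞 K) * (B.δ - ((-s : ℤ) : 𝓞 K)) - (B.δ - (s : 𝓞 K)) * (l : 𝓞 K)) := by
      push_cast
      linear_combination (-(l : 𝓞 K)) * huv'
    rw [e]
    have m1 : (l : 𝓞 K) ∈ B.pr l s := Ideal.subset_span (by simp)
    have m2 : (l : 𝓞 K) ∈ B.pr l (-s) := Ideal.subset_span (by simp)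
    have m3 : B.δ - (s : 𝓞 K) ∈ B.pr l s := Ideal.subset_span (by simp)
    have m4 : B.δ - ((-s : ℤ) : 𝓞 K) ∈ B.pr l (-s) := Ideal.subset_span (by simp)
    exact Ideal.add_mem _ (Ideal.mul_mem_left _ _ (Ideal.mul_mem_mul m1 m2))
      (Ideal.mul_mem_left _ _ (Ideal.sub_mem _ (Ideal.mul_mem_mul m1 m4) (Ideal.mul_mem_mul m3 m2)))

theorem pr_ne_top {l : ℕ} [hl : Fact l.Prime] (h2 : l ≠ 2) {s : ℤ}
    (hs : (l : ℤ) ∣ discr K - s ^ 2) : B.pr l s ≠ ⊤ := by
  intro h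
  rw [Ideal.eq_top_iff_one, pr, Ideal.mem_span_pair] at h
  obtain ⟨x, y, hxy⟩ := h
  obtain ⟨t, ht⟩ := hs
  have ht' : B.δ ^ 2 - (s : 𝓞 K) ^ 2 = (l : 𝓞 K) * (t : 𝓞 K) := by
    rw [B.δ_sq]
    exact_mod_cast ht
  apply B.not_dvd h2 (-s)
  refine ⟨x * (B.δ + s) + y * t, ?_⟩
  push_cast
  linear_combination (-(B.δ + (s : 𝓞 K))) * hxy + y * ht'

theorem pr_ne {l : ℕ} [hl : Fact l.Prime] (h2 : l ≠ 2) (hd : ¬ (l : ℤ) ∣ discr K) {s : ℤ}
    (hs : (l : ℤ) ∣ discr K - s ^ 2) : B.pr l s ≠ B.pr l (-s) := by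
  intro h
  have hls : ¬ (l : ℤ) ∣ 2 * s := by
    intro h
    have h' := (Int.prime_iff_natAbs_prime.mpr (by simpa using hl.out) : Prime (l : ℤ)).dvd_or_dvd h
    rcases h' with h' | h'
    · have h4 : l ∣ 2 := by exact_mod_cast h'
      exact h2 ((Nat.prime_dvd_prime_iff_eq hl.out Nat.prime_two).mp h4)
    · apply hd
      have : discr K = (discr K - s ^ 2) + s * s := by ring
      rw [this]
      exact dvd_add hs (h'.mul_left s)
  have hcop : IsCoprime (l : ℤ) (2 * s) := by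
    rw [Int.isCoprime_iff_gcd_eq_one]
    have := (Nat.Prime.coprime_iff_not_dvd hl.out (n := (2 * s).natAbs)).mpr
      (fun h' => hls (Int.natCast_dvd.mpr h'))
    simpa [Int.gcd] using this
  obtain ⟨u, v, huv⟩ := hcop
  have huv' : (u : 𝓞 K) * (l : 𝓞 K) + (v : 𝓞 K) * (2 * (s : 𝓞 K)) = 1 := by exact_mod_cast huv
  have m1 : (l : 𝓞 K) ∈ B.pr l s := Ideal.subset_span (by simp)
  have m3 : B.δ - (s : 𝓞 K) ∈ B.pr l s := Ideal.subset_span (by simp)
  have m4 : B.δ - ((-s : ℤ) : 𝓞 K) ∈ B.pr l s := by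
    rw [h]
    exact Ideal.subset_span (by simp)
  apply B.pr_ne_top h2 hs
  rw [Ideal.eq_top_iff_one]
  have e : (1 : 𝓞 K) = (u : 𝓞 K) * (l : 𝓞 K) +
      (v : 𝓞 K) * ((B.δ - ((-s : ℤ) : 𝓞 K)) - (B.δ - (s : 𝓞 K))) := by
    push_cast
    linear_combination -huv'
  rw [e]
  exact Ideal.add_mem _ (Ideal.mul_mem_left _ _ m1) (Ideal.mul_mem_left _ _ (Ideal.sub_mem _ m4 m3))

include B in
theorem finrank_int : finrank ℤ (𝓞 K) = 2 := by
  rw [finrank_eq_card_basis B.basis, Fintype.card_fin]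

theorem norm_pr {l : ℕ} [hl : Fact l.Prime] (h2 : l ≠ 2) (hd : ¬ (l : ℤ) ∣ discr K) {s : ℤ}
    (hs : (l : ℤ) ∣ discr K - s ^ 2) : absNorm (B.pr l s) = l := by
  have h1 := congrArg absNorm (B.pr_mul h2 hd hs)
  rw [map_mul, absNorm_span_natCast, B.finrank_int] at h1
  have hs' : (l : ℤ) ∣ discr K - (-s) ^ 2 := by rwa [neg_sq]
  have n1 : absNorm (B.pr l s) ≠ 1 := fun h => B.pr_ne_top h2 hs (absNorm_eq_one_iff.mp h)
  have n2 : absNorm (B.pr l (-s)) ≠ 1 := fun h => B.pr_ne_top h2 hs' (absNorm_eq_one_iff.mp h)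
  exact ((Nat.Prime.mul_eq_prime_sq_iff hl.out n1 n2).mp h1).1

/-- The ideals of norm `ℓ` when the discriminant is a square mod `ℓ`. -/
theorem norm_eq_iff {l : ℕ} [hl : Fact l.Prime] (h2 : l ≠ 2) (hd : ¬ (l : ℤ) ∣ discr K) {s : ℤ}
    (hs : (l : ℤ) ∣ discr K - s ^ 2) (p : Ideal (𝓞 K)) :
    absNorm p = l ↔ p = B.pr l s ∨ p = B.pr l (-s) := by
  have hs' : (l : ℤ) ∣ discr K - (-s) ^ 2 := by rwa [neg_sq]
  constructor
  · intro hp
    have hp1 : Irreducible p := Ideal.irreducible_of_irreducible_absNorm (by rw [hp]; exact hl.out)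
    have hp2 : Prime p := UniqueFactorizationMonoid.irreducible_iff_prime.mp hp1
    have hmem : (l : 𝓞 K) ∈ p := by
      have := absNorm_mem p
      rwa [hp] at this
    have hdvd : p ∣ B.pr l s * B.pr l (-s) := by
      rw [B.pr_mul h2 hd hs, Ideal.dvd_iff_le, Ideal.span_le, Set.singleton_subset_iff]
      exact hmem
    have key : ∀ q : Ideal (𝓞 K), absNorm q = l → p ∣ q → p = q := by
      intro q hq hpq
      have hq1 : Irreducible q := Ideal.irreducible_of_irreducible_absNorm (by rw [hq]; exact hl.out)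
      exact associated_iff_eq.mp ((hp1.dvd_irreducible_iff_associated hq1).mp hpq)
    rcases hp2.dvd_or_dvd hdvd with h | h
    · exact Or.inl (key _ (B.norm_pr h2 hd hs) h)
    · exact Or.inr (key _ (B.norm_pr h2 hd hs') h)
  · rintro (rfl | rfl)
    · exact B.norm_pr h2 hd hs
    · exact B.norm_pr h2 hd hs'

include B in
/-- **[JAC]**, Legendre form: the number of ideals of norm `ℓ`. -/
theorem ncard_norm_eq {l : ℕ} [hl : Fact l.Prime] (h2 : l ≠ 2) (hd : ¬ (l : ℤ) ∣ discr K) :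
    ({p : Ideal (𝓞 K) | absNorm p = l}.ncard : ℤ) = 1 + legendreSym l (discr K) := by
  have hd0 : ((discr K : ℤ) : ZMod l) ≠ 0 := by
    intro h
    exact hd ((ZMod.intCast_zmod_eq_zero_iff_dvd _ _).mp h)
  by_cases h : ∃ s : ℤ, (l : ℤ) ∣ discr K - s ^ 2
  · obtain ⟨s, hs⟩ := h
    have h1 : {p : Ideal (𝓞 K) | absNorm p = l} = {B.pr l s, B.pr l (-s)} := by
      ext p
      rw [Set.mem_ofPred_eq, B.norm_eq_iff h2 hd hs]
      rfl
    rw [h1, Set.ncard_pair (B.pr_ne h2 hd hs), (legendreSym.eq_one_iff l hd0).mpr]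
    · norm_num
    · refine ⟨(s : ZMod l), ?_⟩
      have := (ZMod.intCast_zmod_eq_zero_iff_dvd _ _).mpr hs
      push_cast at this
      linear_combination this
  · have h1 : {p : Ideal (𝓞 K) | absNorm p = l} = ∅ := by
      rw [Set.eq_empty_iff_forall_notMem]
      intro p hp
      exact h (B.exists_sq_of_norm hp)
    rw [h1, Set.ncard_empty, (legendreSym.eq_neg_one_iff l).mpr]
    · norm_num
    · rintro ⟨s, hs⟩
      apply h
      refine ⟨(s.val : ℤ), ?_⟩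
      rw [← ZMod.intCast_zmod_eq_zero_iff_dvd]
      push_cast
      rw [ZMod.natCast_zmod_val, hs]
      ring

include B in
theorem sq_ne {l : ℕ} [hl : Fact l.Prime] (h2 : l ≠ 2) (hd : ¬ (l : ℤ) ∣ discr K)
    (p : Ideal (𝓞 K)) (hp : absNorm p = l) : p ^ 2 ≠ span {(l : 𝓞 K)} := by
  obtain ⟨s, hs⟩ := B.exists_sq_of_norm hp
  have hne : ∀ q : Ideal (𝓞 K), absNorm q = l → q ≠ 0 := by
    rintro q hq rfl
    rw [map_zero] at hq
    exact hl.out.ne_zero hq.symm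
  intro h
  rw [← B.pr_mul h2 hd hs, sq] at h
  rcases (B.norm_eq_iff h2 hd hs p).mp hp with h' | h'
  · rw [h'] at h
    exact B.pr_ne h2 hd hs (mul_left_cancel₀ (hne _ (B.norm_pr h2 hd hs)) h)
  · rw [h'] at h
    exact B.pr_ne h2 hd hs (mul_right_cancel₀ (hne _ (h' ▸ hp)) h).symm

end QB

/-- quadratic reciprocity: `(-D / ℓ) = (ℓ / D)` for `D ≡ 3 mod 4` -/
theorem leg_eq_jac {l D : ℕ} [hl : Fact l.Prime] (h2 : l ≠ 2) (hD : D % 4 = 3) :
    legendreSym l (-(D : ℤ)) = jacobiSym l D := by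
  have hlo : Odd l := hl.out.odd_of_ne_two h2
  have hDo : Odd D := Nat.odd_iff.mpr (by omega)
  rw [jacobiSym.legendreSym.to_jacobiSym, jacobiSym.neg _ hlo]
  have h4 : l % 4 = 1 ∨ l % 4 = 3 := by
    have := Nat.odd_iff.mp hlo
    omega
  rcases h4 with h4 | h4
  · rw [ZMod.χ₄_nat_one_mod_four h4, one_mul, jacobiSym.quadratic_reciprocity_one_mod_four' hDo h4]
  · rw [ZMod.χ₄_nat_three_mod_four h4, jacobiSym.quadratic_reciprocity_three_mod_four hD h4]
    ring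

theorem mod_four {D : ℕ} (B : QB K) (hd : discr K = -(D : ℤ)) (hD : Odd D) : D % 4 = 3 := by
  rw [B.discr_eq] at hd
  rcases Int.even_or_odd' B.q with ⟨k, hk | hk⟩
  · exfalso
    rw [hk] at hd
    have : (D : ℤ) = 2 * (-(2 * k ^ 2 + 2 * B.p)) := by linear_combination hd
    obtain ⟨j, hj⟩ := hD
    omega
  · rw [hk] at hd
    have : (D : ℤ) = 4 * (-(k ^ 2 + k + B.p)) - 1 := by linear_combination hd
    omega

/-- **[JAC]** -/
theorem JAC : JACStmt := by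
  intro K _ _ _ _ D hd hD ℓ hℓ hℓD
  have : Fact ℓ.Prime := ⟨hℓ⟩
  obtain ⟨B⟩ := exists_qb (K := K) (Algebra.IsQuadraticExtension.finrank_eq_two ℚ K)
  have h2 : ℓ ≠ 2 := by
    rintro rfl
    exact hℓD (dvd_mul_right _ _)
  have hdd : ¬ (ℓ : ℤ) ∣ discr K := by
    rw [hd, dvd_neg]
    intro h
    exact hℓD ((Int.natCast_dvd_natCast.mp h).mul_left 2)
  have hd0 : ((discr K : ℤ) : ZMod ℓ) ≠ 0 := by
    intro h
    exact hdd ((ZMod.intCast_zmod_eq_zero_iff_dvd _ _).mp h)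
  have hJ : jacobiSym (ℓ : ℤ) D = legendreSym ℓ (discr K) := by
    rw [hd, leg_eq_jac h2 (mod_four B hd hD)]
  rw [hJ]
  by_cases h : ∃ s : ℤ, (ℓ : ℤ) ∣ discr K - s ^ 2
  · obtain ⟨s, hs⟩ := h
    left
    have hs' : (ℓ : ℤ) ∣ discr K - (-s) ^ 2 := by rwa [neg_sq]
    refine ⟨(legendreSym.eq_one_iff ℓ hd0).mpr ⟨(s : ZMod ℓ), ?_⟩, B.pr ℓ s, B.pr ℓ (-s),
      B.pr_ne h2 hdd hs, ?_, ?_, B.norm_pr h2 hdd hs, B.norm_pr h2 hdd hs', B.pr_mul h2 hdd hs⟩
    · have := (ZMod.intCast_zmod_eq_zero_iff_dvd _ _).mpr hs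
      push_cast at this
      linear_combination this
    · exact Ideal.isPrime_of_irreducible_absNorm (by rw [B.norm_pr h2 hdd hs]; exact hℓ)
    · exact Ideal.isPrime_of_irreducible_absNorm (by rw [B.norm_pr h2 hdd hs']; exact hℓ)
  · right
    refine ⟨(legendreSym.eq_neg_one_iff ℓ).mpr ?_, ?_⟩
    · rintro ⟨s, hs⟩
      apply h
      refine ⟨(s.val : ℤ), ?_⟩
      rw [← ZMod.intCast_zmod_eq_zero_iff_dvd]
      push_cast
      rw [ZMod.natCast_zmod_val, hs]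
      ring
    · have hN : absNorm (span {(ℓ : 𝓞 K)}) = ℓ ^ 2 := by
        rw [absNorm_span_natCast, B.finrank_int]
      have hirr : Irreducible (span {(ℓ : 𝓞 K)}) := by
        refine irreducible_iff.mpr ⟨?_, ?_⟩
        · rw [Ideal.isUnit_iff, ← absNorm_eq_one_iff, hN]
          have := hℓ.one_lt
          nlinarith
        · intro a b hab
          rw [Ideal.isUnit_iff, Ideal.isUnit_iff, ← absNorm_eq_one_iff, ← absNorm_eq_one_iff]
          by_contra hcon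
          rw [not_or] at hcon
          rw [hab, map_mul] at hN
          have := ((Nat.Prime.mul_eq_prime_sq_iff hℓ hcon.1 hcon.2).mp hN).1
          exact h (B.exists_sq_of_norm this)
      exact Ideal.isPrime_of_prime (UniqueFactorizationMonoid.irreducible_iff_prime.mp hirr)

end Vale.Agent.P022.H724
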