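import Vale.Agent.P022.H724.Jac
import Vale.Agent.P022.H220.Ser

/-!
# P022 [JAC] in the letters of `H220/Ser.lean`
-/

open NumberField Module Ideal Vale.Agent.P022.H220

namespace Vale.Agent.P022.H724

variable {K : Type*} [Field K] [NumberField K] [Algebra.IsQuadraticExtension ℚ K]

theorem unram {D : ℕ} (hd : discr K = -(D : ℤ)) {ℓ : ℕ} (hℓ : ℓ.Prime) (hℓD : ¬ ℓ ∣ 2 * D) :
    Unram (𝓞 K) ℓ := by
  have : Fact ℓ.Prime := ⟨hℓ⟩
  obtain ⟨B⟩ := exists_qb (K := K) (Algebra.IsQuadraticExtension.finrank_eq_two ℚ K)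
  have h2 : ℓ ≠ 2 := by
    rintro rfl
    exact hℓD (dvd_mul_right _ _)
  have hdd : ¬ (ℓ : ℤ) ∣ discr K := by
    rw [hd, dvd_neg]
    intro h
    exact hℓD ((Int.natCast_dvd_natCast.mp h).mul_left 2)
  exact fun p hp => B.sq_ne h2 hdd p hp

theorem chi_eq {D : ℕ} (hd : discr K = -(D : ℤ)) (hD : Odd D) {ℓ : ℕ} (hℓ : ℓ.Prime)
    (hℓD : ¬ ℓ ∣ 2 * D) : chi (𝓞 K) ℓ = jacobiSym (ℓ : ℤ) D := by
  have : Fact ℓ.Prime := ⟨hℓ⟩
  obtain ⟨B⟩ := exists_qb (K := K) (Algebra.IsQuadraticExtension.finrank_eq_two ℚ K)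
  have h2 : ℓ ≠ 2 := by
    rintro rfl
    exact hℓD (dvd_mul_right _ _)
  have hdd : ¬ (ℓ : ℤ) ∣ discr K := by
    rw [hd, dvd_neg]
    intro h
    exact hℓD ((Int.natCast_dvd_natCast.mp h).mul_left 2)
  have h1 := B.ncard_norm_eq h2 hdd
  have h3 : {p : Ideal (𝓞 K) | absNorm p = ℓ} = ((Pl (𝓞 K) ℓ : Finset (Ideal (𝓞 K))) : Set _) := by
    ext p
    simp
  rw [h3, Set.ncard_coe_finset, hd, leg_eq_jac h2 (mod_four B hd hD)] at h1
  unfold chi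
  rw [h1]
  ring

theorem finrank_int_two : finrank ℤ (𝓞 K) = 2 := by
  obtain ⟨B⟩ := exists_qb (K := K) (Algebra.IsQuadraticExtension.finrank_eq_two ℚ K)
  exact B.finrank_int

end Vale.Agent.P022.H724
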