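import Vale.Agent.P022.H724.Bas
import Vale.Agent.P022.H472.Lit

/-!
# P022 [IB]: an ideal of an imaginary quadratic ring of integers has an oriented basis
-/

open NumberField Module Ideal

namespace Vale.Agent.P022.H724

variable {K : Type*} [Field K] [NumberField K]

namespace QB

variable (B : QB K)

/-- real part and absolute value of the image of `ω` -/
theorem sig_re (hd : discr K < 0) (σ : K →+* ℂ) :
    2 * (σ (B.ω : K)).re = B.q ∧ (σ (B.ω : K)).im ^ 2 = -(discr K : ℝ) / 4 ∧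
    Complex.normSq (σ (B.ω : K)) = -B.p := by
  have h1 : σ (B.ω : K) * σ (B.ω : K) = (B.p : ℂ) + (B.q : ℂ) * σ (B.ω : K) := by
    have h := congrArg (fun x : 𝓞 K => σ (x : K)) B.rel
    simpa using h
  set z := σ (B.ω : K) with hz
  have hre := congrArg Complex.re h1
  have him := congrArg Complex.im h1
  simp only [Complex.mul_re, Complex.mul_im, Complex.add_re, Complex.add_im, Complex.intCast_re,
    Complex.intCast_im, zero_mul, sub_zero, zero_add, add_zero] at hre him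
  have hdR : ((B.q : ℝ) ^ 2 + 4 * B.p) < 0 := by
    have := B.discr_eq ▸ hd
    exact_mod_cast this
  have him0 : z.im ≠ 0 := by
    intro h0
    rw [h0] at hre
    nlinarith [sq_nonneg (2 * z.re - B.q)]
  have h2 : 2 * z.re = B.q := by
    have : z.im * (2 * z.re - B.q) = 0 := by linear_combination him
    rcases mul_eq_zero.mp this with h | h
    · exact absurd h him0
    · linarith
  have h3 : z.im ^ 2 = -(discr K : ℝ) / 4 := by
    rw [B.discr_eq]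
    push_cast
    rw [← h2]
    rw [← h2] at hre
    linear_combination -hre
  refine ⟨h2, h3, ?_⟩
  rw [Complex.normSq_apply]
  rw [← h2] at hre
  linear_combination -hre

theorem exists_basis (I : Ideal (𝓞 K)) (hI : I ≠ ⊥) : ∃ s0 r0 s1 r1 : ℤ,
    ((s0 : 𝓞 K) + (r0 : 𝓞 K) * B.ω ∈ I) ∧ ((s1 : 𝓞 K) + (r1 : 𝓞 K) * B.ω ∈ I) ∧
    (∀ y ∈ I, ∃ u v : ℤ, y = (u : 𝓞 K) * ((s0 : 𝓞 K) + (r0 : 𝓞 K) * B.ω) +
      (v : 𝓞 K) * ((s1 : 𝓞 K) + (r1 : 𝓞 K) * B.ω)) ∧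
    (s0 * r1 - s1 * r0) ^ 2 = (absNorm I : ℤ) ^ 2 := by
  classical
  let bI : Basis (Fin 2) ℤ I := Ideal.selfBasis B.basis I hI
  obtain ⟨s0, r0, h0⟩ := B.gen (bI 0 : 𝓞 K)
  obtain ⟨s1, r1, h1⟩ := B.gen (bI 1 : 𝓞 K)
  refine ⟨s0, r0, s1, r1, h0 ▸ (bI 0).2, h1 ▸ (bI 1).2, ?_, ?_⟩
  · intro y hy
    refine ⟨bI.repr ⟨y, hy⟩ 0, bI.repr ⟨y, hy⟩ 1, ?_⟩
    have h := congrArg (Subtype.val : I → 𝓞 K) (bI.sum_repr ⟨y, hy⟩)
    rw [Fin.sum_univ_two] at h
    rw [← h0, ← h1]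
    simp only [Submodule.coe_add, Submodule.coe_smul_of_tower, zsmul_eq_mul] at h
    exact h.symm
  · have h := Ideal.natAbs_det_basis_change B.basis I bI
    have h2 : B.basis.det ((↑) ∘ bI) = s0 * r1 - s1 * r0 := by
      rw [Basis.det_apply, Matrix.det_fin_two]
      simp only [Basis.toMatrix_apply, Function.comp_apply]
      rw [h0, h1, repr_eq, repr_eq]
      simp
    rw [h2] at h
    rw [← h, Int.natCast_natAbs, sq_abs]

end QB

theorem pos_form {p q s r : ℤ} (hd : q ^ 2 + 4 * p < 0) (h : s ≠ 0 ∨ r ≠ 0) :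
    0 < s ^ 2 + q * s * r - p * r ^ 2 := by
  have h4 : 4 * (s ^ 2 + q * s * r - p * r ^ 2) = (2 * s + q * r) ^ 2 + (-(q ^ 2 + 4 * p)) * r ^ 2 := by
    ring
  by_cases hr : r = 0
  · subst hr
    have hs : s ≠ 0 := by
      rcases h with h | h
      · exact h
      · exact absurd rfl h
    have : 0 < s ^ 2 := by positivity
    nlinarith
  · have h1 : 0 < r ^ 2 := by positivity
    nlinarith [sq_nonneg (2 * s + q * r), mul_pos (neg_pos.mpr hd) h1]

/-- **[IB]** -/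
theorem IB : IBStmt := by
  intro K _ _ _ _ D hd σ 𝔟 h𝔟
  obtain ⟨B⟩ := exists_qb (K := K) (Algebra.IsQuadraticExtension.finrank_eq_two ℚ K)
  obtain ⟨s0, r0, s1', r1', m0, m1', hgen', hdet'⟩ := B.exists_basis 𝔟 h𝔟
  have hD0 : discr K ≠ 0 := discr_ne_zero K
  have hdneg : discr K < 0 := by
    rcases Nat.eq_zero_or_pos D with h | h
    · rw [h] at hd
      exact absurd (by simpa using hd) hD0
    · rw [hd]
      simpa using h
  have hN : 0 < absNorm 𝔟 := Nat.pos_of_ne_zero (fun h => h𝔟 (absNorm_eq_zero_iff.mp h))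
  obtain ⟨hre, him, hnsq⟩ := B.sig_re hdneg σ
  have hrel : σ (B.ω : K) * σ (B.ω : K) = (B.p : ℂ) + (B.q : ℂ) * σ (B.ω : K) := by
    have h := congrArg (fun x : 𝓞 K => σ (x : K)) B.rel
    simpa using h
  have hdq := B.discr_eq
  set n : ℕ := absNorm 𝔟 with hn
  have hnz : (n : ℤ) ≠ 0 := by exact_mod_cast hN.ne'
  have hdR : (discr K : ℝ) < 0 := by exact_mod_cast hdneg
  have him0 : (σ (B.ω : K)).im ≠ 0 := by
    intro h0
    rw [h0] at him
    nlinarith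
  -- orientation
  obtain ⟨s1, r1, m1, hgen, hdet, hpos⟩ : ∃ s1 r1 : ℤ, ((s1 : 𝓞 K) + (r1 : 𝓞 K) * B.ω ∈ 𝔟) ∧
      (∀ y ∈ 𝔟, ∃ u v : ℤ, y = (u : 𝓞 K) * ((s0 : 𝓞 K) + (r0 : 𝓞 K) * B.ω) +
        (v : 𝓞 K) * ((s1 : 𝓞 K) + (r1 : 𝓞 K) * B.ω)) ∧
      (s0 * r1 - s1 * r0) ^ 2 = (n : ℤ) ^ 2 ∧
      0 < ((s0 * r1 - s1 * r0 : ℤ) : ℝ) * (σ (B.ω : K)).im := by
    have hE : s0 * r1' - s1' * r0 ≠ 0 := by
      intro h
      rw [h] at hdet'
      exact hnz (by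
        have : (n : ℤ) ^ 2 = 0 := by rw [← hdet']; ring
        exact pow_eq_zero_iff two_ne_zero |>.mp this)
    have hne : ((s0 * r1' - s1' * r0 : ℤ) : ℝ) * (σ (B.ω : K)).im ≠ 0 :=
      mul_ne_zero (by exact_mod_cast hE) him0
    rcases lt_or_gt_of_ne hne with h | h
    · refine ⟨-s1', -r1', ?_, ?_, ?_, ?_⟩
      · have := 𝔟.neg_mem m1'
        have e : ((-s1' : ℤ) : 𝓞 K) + ((-r1' : ℤ) : 𝓞 K) * B.ω =
            -((s1' : 𝓞 K) + (r1' : 𝓞 K) * B.ω) := by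
          push_cast
          ring
        rw [e]
        exact this
      · intro y hy
        obtain ⟨u, v, huv⟩ := hgen' y hy
        refine ⟨u, -v, ?_⟩
        rw [huv]
        push_cast
        ring
      · rw [← hdet']
        ring
      · have e : ((s0 * -r1' - -s1' * r0 : ℤ) : ℝ) * (σ (B.ω : K)).im =
            -(((s0 * r1' - s1' * r0 : ℤ) : ℝ) * (σ (B.ω : K)).im) := by
          push_cast
          ring
        rw [e]
        linarith
    · exact ⟨s1', r1', m1', hgen', hdet', h⟩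
  have hE : s0 * r1 - s1 * r0 ≠ 0 := by
    intro h
    rw [h] at hpos
    simp at hpos
  -- the form
  have dvd : ∀ s r : ℤ, (s : 𝓞 K) + (r : 𝓞 K) * B.ω ∈ 𝔟 →
      (n : ℤ) ∣ s ^ 2 + B.q * s * r - B.p * r ^ 2 := by
    intro s r h
    have := Ideal.absNorm_dvd_norm_of_mem h
    rwa [B.norm_eq] at this
  obtain ⟨a, ha⟩ := dvd s0 r0 m0
  obtain ⟨c, hc⟩ := dvd s1 r1 m1
  obtain ⟨e, he⟩ := dvd (s0 + s1) (r0 + r1) (by
    have := 𝔟.add_mem m0 m1
    have e : ((s0 + s1 : ℤ) : 𝓞 K) + ((r0 + r1 : ℤ) : 𝓞 K) * B.ω =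
        ((s0 : 𝓞 K) + (r0 : 𝓞 K) * B.ω) + ((s1 : 𝓞 K) + (r1 : 𝓞 K) * B.ω) := by
      push_cast
      ring
    rw [e]
    exact this)
  set b : ℤ := e - a - c with hb
  have hT : 2 * s0 * s1 + B.q * (s0 * r1 + s1 * r0) - 2 * B.p * r0 * r1 = n * b := by
    rw [hb]
    linear_combination he - ha - hc
  have hdq' : B.q ^ 2 + 4 * B.p = -(D : ℤ) := by rw [← hdq, hd]
  have hdisc : b ^ 2 - 4 * a * c = -(D : ℤ) := by
    have h1 : (n : ℤ) ^ 2 * (b ^ 2 - 4 * a * c) = (n : ℤ) ^ 2 * -(D : ℤ) := by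
      rw [← hdq']
      conv_rhs => rw [← hdet]
      linear_combination (-(n * b) - (2 * s0 * s1 + B.q * (s0 * r1 + s1 * r0) -
        2 * B.p * r0 * r1)) * hT + 4 * (n : ℤ) * c * ha +
        4 * (s0 ^ 2 + B.q * s0 * r0 - B.p * r0 ^ 2) * hc
    exact mul_left_cancel₀ (pow_ne_zero 2 hnz) h1
  have hdq'' : B.q ^ 2 + 4 * B.p < 0 := by rw [← hdq]; exact hdneg
  have hapos : 0 < a := by
    have h1 : 0 < s0 ^ 2 + B.q * s0 * r0 - B.p * r0 ^ 2 := by
      apply pos_form hdq''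
      by_contra hcon
      rw [not_or, not_not, not_not] at hcon
      apply hE
      rw [hcon.1, hcon.2]
      ring
    rw [ha] at h1
    exact (mul_pos_iff_of_pos_left (by exact_mod_cast hN)).mp h1
  -- the two values
  set z : ℂ := σ (B.ω : K) with hz
  set E : ℤ := s0 * r1 - s1 * r0 with hEdef
  have hzc : (starRingEnd ℂ) z = (B.q : ℂ) - z := by
    apply Complex.ext
    · rw [Complex.conj_re, Complex.sub_re, Complex.intCast_re]
      linarith
    · rw [Complex.conj_im, Complex.sub_im, Complex.intCast_im]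
      ring
  have hzim : 2 * z - (B.q : ℂ) = 2 * Complex.I * (z.im : ℂ) := by
    apply Complex.ext
    · simp
      linarith
    · simp
  have hsqrt : 2 * ((E : ℝ) * z.im) = (n : ℝ) * Real.sqrt D := by
    have h1 : (2 * ((E : ℝ) * z.im)) ^ 2 = ((n : ℝ) * Real.sqrt D) ^ 2 := by
      rw [mul_pow, mul_pow, mul_pow, Real.sq_sqrt (Nat.cast_nonneg D), him, hd]
      have h2 : (E : ℝ) ^ 2 = (n : ℝ) ^ 2 := by exact_mod_cast hdet
      rw [h2]
      push_cast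
      ring
    have h3 : 0 ≤ 2 * ((E : ℝ) * z.im) := by
      linarith
    have h4 : 0 ≤ (n : ℝ) * Real.sqrt D := by positivity
    exact (sq_eq_sq₀ h3 h4).mp h1
  have hsqrtC : 2 * ((E : ℂ) * (z.im : ℂ)) = (n : ℂ) * (Real.sqrt D : ℂ) := by
    exact_mod_cast hsqrt
  set z0 : ℂ := (s0 : ℂ) + (r0 : ℂ) * z with hz0
  set z1 : ℂ := (s1 : ℂ) + (r1 : ℂ) * z with hz1
  have hc0 : (starRingEnd ℂ) z0 = (s0 : ℂ) + (r0 : ℂ) * ((B.q : ℂ) - z) := by
    rw [hz0, map_add, map_mul, hzc, map_intCast, map_intCast]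
  have e0 : (starRingEnd ℂ) z0 * z0 = (n : ℂ) * (a : ℂ) := by
    rw [hc0, hz0]
    have h1 : ((s0 ^ 2 + B.q * s0 * r0 - B.p * r0 ^ 2 : ℤ) : ℂ) = (n : ℂ) * (a : ℂ) := by
      rw [ha]
      push_cast
      ring
    rw [← h1]
    push_cast
    linear_combination (-(r0 : ℂ) ^ 2) * hrel
  have e1 : 2 * ((starRingEnd ℂ) z0 * z1) = (n : ℂ) * ((b : ℂ) + Complex.I * (Real.sqrt D : ℂ)) := by
    rw [hc0, hz1]
    have h1 : ((2 * s0 * s1 + B.q * (s0 * r1 + s1 * r0) - 2 * B.p * r0 * r1 : ℤ) : ℂ) =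
        (n : ℂ) * (b : ℂ) := by
      rw [hT]
      push_cast
      ring
    have h2 : (E : ℂ) = (s0 : ℂ) * r1 - s1 * r0 := by
      rw [hEdef]
      push_cast
      ring
    push_cast at h1
    rw [mul_add (n : ℂ), ← h1]
    have h3 : (n : ℂ) * (Complex.I * (Real.sqrt D : ℂ)) = (2 * z - (B.q : ℂ)) * (E : ℂ) := by
      rw [hzim]
      linear_combination (-Complex.I) * hsqrtC
    rw [h3, h2]
    linear_combination (-2 * (r0 : ℂ) * r1) * hrel
  have haC : (a : ℂ) ≠ 0 := by exact_mod_cast hapos.ne'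
  have hnC : (n : ℂ) ≠ 0 := by exact_mod_cast hN.ne'
  have hz00 : z0 ≠ 0 := by
    intro h
    rw [h, mul_zero] at e0
    exact mul_ne_zero hnC haC e0.symm
  have e2 : 2 * (a : ℂ) * z1 = z0 * ((b : ℂ) + Complex.I * (Real.sqrt D : ℂ)) := by
    apply mul_left_cancel₀ hnC
    linear_combination z0 * e1 - 2 * z1 * e0
  -- the additive equivalence
  have hsum : ∀ v : ℤ × ℤ, (v.1 : 𝓞 K) * ((s0 : 𝓞 K) + (r0 : 𝓞 K) * B.ω) +
      (v.2 : 𝓞 K) * ((s1 : 𝓞 K) + (r1 : 𝓞 K) * B.ω) =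
      ((v.1 * s0 + v.2 * s1 : ℤ) : 𝓞 K) + ((v.1 * r0 + v.2 * r1 : ℤ) : 𝓞 K) * B.ω := by
    intro v
    push_cast
    ring
  let f : ℤ × ℤ →+ 𝔟 := AddMonoidHom.mk' (fun v => ⟨(v.1 : 𝓞 K) * ((s0 : 𝓞 K) + (r0 : 𝓞 K) * B.ω) +
      (v.2 : 𝓞 K) * ((s1 : 𝓞 K) + (r1 : 𝓞 K) * B.ω),
      𝔟.add_mem (𝔟.mul_mem_left _ m0) (𝔟.mul_mem_left _ m1)⟩) (by
    intro v w
    apply Subtype.ext
    show _ = _ + _
    push_cast [Prod.fst_add, Prod.snd_add]
    ring)
  have hfval : ∀ v, ((f v : 𝔟) : 𝓞 K) = ((v.1 * s0 + v.2 * s1 : ℤ) : 𝓞 K) +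
      ((v.1 * r0 + v.2 * r1 : ℤ) : 𝓞 K) * B.ω := fun v => hsum v
  have hf : Function.Bijective f := by
    constructor
    · rw [injective_iff_map_eq_zero]
      intro v hv
      have h1 := congrArg (Subtype.val : 𝔟 → 𝓞 K) hv
      have h2 := B.ind _ _ ((hfval v).symm.trans h1)
      have h3 : v.1 * E = 0 := by
        rw [hEdef]
        linear_combination r1 * h2.1 - s1 * h2.2
      have h4 : v.2 * E = 0 := by
        rw [hEdef]
        linear_combination s0 * h2.2 - r0 * h2.1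
      have h5 := (mul_eq_zero.mp h3).resolve_right hE
      have h6 := (mul_eq_zero.mp h4).resolve_right hE
      exact Prod.ext h5 h6
    · rintro ⟨y, hy⟩
      obtain ⟨u, v, huv⟩ := hgen y hy
      exact ⟨(u, v), Subtype.ext huv.symm⟩
  refine ⟨a, b, c, AddEquiv.ofBijective f hf, z0 / a, hapos, hdisc, div_ne_zero hz00 haC, ?_⟩
  intro v
  rw [AddEquiv.ofBijective_apply]
  constructor
  · rw [hfval]
    have h1 : σ ((((v.1 * s0 + v.2 * s1 : ℤ) : 𝓞 K) +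
        ((v.1 * r0 + v.2 * r1 : ℤ) : 𝓞 K) * B.ω : 𝓞 K) : K) = (v.1 : ℂ) * z0 + (v.2 : ℂ) * z1 := by
      rw [hz0, hz1]
      simp only [map_add, map_mul, map_intCast]
      push_cast
      ring
    rw [h1]
    unfold ev
    field_simp
    linear_combination (v.2 : ℂ) * e2
  · rw [absNorm_span_singleton, Int.natCast_natAbs, hfval, B.norm_eq]
    have h1 : (v.1 * s0 + v.2 * s1) ^ 2 + B.q * (v.1 * s0 + v.2 * s1) * (v.1 * r0 + v.2 * r1) -
        B.p * (v.1 * r0 + v.2 * r1) ^ 2 = Qf a b c v * n := by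
      unfold Qf
      linear_combination v.1 ^ 2 * ha + v.1 * v.2 * hT + v.2 ^ 2 * hc
    rw [abs_of_nonneg, h1]
    by_cases h : (v.1 * s0 + v.2 * s1) ≠ 0 ∨ (v.1 * r0 + v.2 * r1) ≠ 0
    · exact (pos_form hdq'' h).le
    · rw [not_or, not_not, not_not] at h
      rw [h.1, h.2]
      norm_num

end Vale.Agent.P022.H724
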