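import Vale.Agent.P022.H220.Shell
import Vale.Agent.P022.H472.Lit

/-!
# P022 [Q1]: the coefficient of `q`
-/

open NumberField Module Ideal UpperHalfPlane

namespace Vale.Agent.P022.H724

/-- the beginning of a power series in `x`, given as a summable family -/
theorem two_terms {ι : Type*} (P : ι → ℂ) (n : ι → ℕ) (hP : Summable P) {x : ℝ} (h0 : 0 < x)
    (h1 : x ≤ 1) :
    ‖∑' a, P a * (x : ℂ) ^ n a - ((∑' a, if n a = 0 then P a else 0) +
      (x : ℂ) * ∑' a, if n a = 1 then P a else 0)‖ ≤ x ^ 2 * ∑' a, ‖P a‖ := by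
  have hn : Summable fun a => ‖P a‖ := hP.norm
  have s0 : Summable fun a => if n a = 0 then P a else 0 :=
    Summable.of_norm_bounded hn (fun a => by split_ifs <;> simp)
  have s1 : Summable fun a => if n a = 1 then P a else 0 :=
    Summable.of_norm_bounded hn (fun a => by split_ifs <;> simp)
  have hxn : ∀ k : ℕ, ‖(x : ℂ) ^ k‖ ≤ 1 := by
    intro k
    rw [norm_pow, Complex.norm_real, Real.norm_eq_abs, abs_of_pos h0]
    exact pow_le_one₀ h0.le h1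
  have sx : Summable fun a => P a * (x : ℂ) ^ n a :=
    Summable.of_norm_bounded hn (fun a => by
      rw [norm_mul]
      exact mul_le_of_le_one_right (norm_nonneg _) (hxn _))
  rw [← tsum_mul_left, ← s0.tsum_add (s1.mul_left _), ← sx.tsum_sub (s0.add (s1.mul_left _))]
  have hb : ∀ a, ‖P a * (x : ℂ) ^ n a - ((if n a = 0 then P a else 0) +
      (x : ℂ) * (if n a = 1 then P a else 0))‖ ≤ x ^ 2 * ‖P a‖ := by
    intro a
    by_cases h : n a = 0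
    · simp [h]
      positivity
    by_cases h' : n a = 1
    · simp [h']
      rw [mul_comm, sub_self, norm_zero]
      positivity
    · rw [if_neg h, if_neg h', mul_zero, add_zero, sub_zero, norm_mul, norm_pow, Complex.norm_real,
        Real.norm_eq_abs, abs_of_pos h0, mul_comm]
      apply mul_le_mul_of_nonneg_right _ (norm_nonneg _)
      exact pow_le_pow_of_le_one h0.le h1 (by omega)
  rw [← tsum_mul_left]
  exact tsum_of_norm_bounded (hn.mul_left (x ^ 2)).hasSum hb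

theorem lin_zero {A B : ℂ} {M : ℝ} (h : ∀ x : ℝ, 0 < x → x ≤ 1 → ‖A + (x : ℂ) * B‖ ≤ x ^ 2 * M) :
    A = 0 ∧ B = 0 := by
  have hM : 0 ≤ M := by
    have := h 1 one_pos le_rfl
    have h' := norm_nonneg (A + ((1 : ℝ) : ℂ) * B)
    linarith
  have hA : A = 0 := by
    rw [← norm_le_zero_iff]
    refine le_of_forall_pos_le_add fun ε hε => ?_
    set x : ℝ := min 1 (ε / (‖B‖ + M + 1)) with hx
    have hd : 0 < ‖B‖ + M + 1 := by positivity
    have hx0 : 0 < x := lt_min one_pos (div_pos hε hd)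
    have hx1 : x ≤ 1 := min_le_left _ _
    have hx2 : x * (‖B‖ + M + 1) ≤ ε := by
      have := min_le_right 1 (ε / (‖B‖ + M + 1))
      rw [← hx] at this
      rwa [le_div_iff₀ hd] at this
    have h1 := h x hx0 hx1
    have h2 : ‖A‖ ≤ ‖A + (x : ℂ) * B‖ + ‖(x : ℂ) * B‖ := by
      calc ‖A‖ = ‖(A + (x : ℂ) * B) - (x : ℂ) * B‖ := by ring_nf
        _ ≤ _ := norm_sub_le _ _
    rw [norm_mul (x : ℂ) B, Complex.norm_real, Real.norm_eq_abs, abs_of_pos hx0] at h2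
    nlinarith [mul_le_mul_of_nonneg_left hx1 hx0.le]
  refine ⟨hA, ?_⟩
  subst hA
  rw [← norm_le_zero_iff]
  refine le_of_forall_pos_le_add fun ε hε => ?_
  set x : ℝ := min 1 (ε / (M + 1)) with hx
  have hd : 0 < M + 1 := by positivity
  have hx0 : 0 < x := lt_min one_pos (div_pos hε hd)
  have hx1 : x ≤ 1 := min_le_left _ _
  have hx2 : x * (M + 1) ≤ ε := by
    have := min_le_right 1 (ε / (M + 1))
    rw [← hx] at this
    rwa [le_div_iff₀ hd] at this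
  have h1 := h x hx0 hx1
  rw [zero_add, norm_mul, Complex.norm_real, Real.norm_eq_abs, abs_of_pos hx0] at h1
  have h2 : ‖B‖ ≤ x * M := by
    have : x * ‖B‖ ≤ x * (x * M) := by linarith [h1, sq x]
    exact le_of_mul_le_mul_left this hx0
  nlinarith

section

variable {K : Type} [Field K] [NumberField K]

/-- the exponent of `q` attached to `α ∈ 𝔟` -/
noncomputable def nn (𝔟 : Ideal (𝓞 K)) (α : 𝔟) : ℕ :=
  absNorm (span {(α : 𝓞 K)}) / absNorm 𝔟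

theorem nn_mul {𝔟 : Ideal (𝓞 K)} (α : 𝔟) :
    nn 𝔟 α * absNorm 𝔟 = absNorm (span {(α : 𝓞 K)}) := by
  apply Nat.div_mul_cancel
  apply Ideal.absNorm_dvd_absNorm_of_le
  rw [Ideal.span_le, Set.singleton_subset_iff]
  exact α.2

theorem nn_one_iff {𝔟 : Ideal (𝓞 K)} (h𝔟 : 𝔟 ≠ ⊥) (α : 𝔟) :
    nn 𝔟 α = 1 ↔ span {(α : 𝓞 K)} = 𝔟 := by
  have hN : absNorm 𝔟 ≠ 0 := fun h => h𝔟 (absNorm_eq_zero_iff.mp h)
  constructor
  · intro h
    have h1 := nn_mul α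
    rw [h, one_mul] at h1
    have hle : span {(α : 𝓞 K)} ≤ 𝔟 := by
      rw [Ideal.span_le, Set.singleton_subset_iff]
      exact α.2
    obtain ⟨c, hc⟩ := Ideal.dvd_iff_le.mpr hle
    have h2 : absNorm c = 1 := by
      rw [hc, map_mul] at h1
      have : absNorm 𝔟 * 1 = absNorm 𝔟 * absNorm c := by rw [mul_one]; exact h1
      exact (Nat.eq_of_mul_eq_mul_left (Nat.pos_of_ne_zero hN) this).symm
    rw [absNorm_eq_one_iff] at h2
    rw [hc, h2, Ideal.mul_top]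
  · intro h
    have h1 := nn_mul α
    rw [h] at h1
    exact Nat.eq_of_mul_eq_mul_right (Nat.pos_of_ne_zero hN) (by rw [h1, one_mul])

/-- the point `i (1 - log x / 2π)` -/
noncomputable def tx (x : ℝ) (h0 : 0 < x) (h1 : x ≤ 1) : ℍ :=
  ⟨Complex.I * ((1 - Real.log x / (2 * Real.pi) : ℝ) : ℂ), by
    rw [Complex.mul_im, Complex.I_re, Complex.I_im, Complex.ofReal_re, Complex.ofReal_im]
    have h2 : Real.log x ≤ 0 := Real.log_nonpos h0.le h1
    have h3 : Real.log x / (2 * Real.pi) ≤ 0 := div_nonpos_of_nonpos_of_nonneg h2 (by positivity)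
    linarith⟩

theorem tx_coe (x : ℝ) (h0 : 0 < x) (h1 : x ≤ 1) :
    ((tx x h0 h1 : ℍ) : ℂ) = Complex.I * ((1 - Real.log x / (2 * Real.pi) : ℝ) : ℂ) := rfl

/-- the term of the series at `x = 1` -/
noncomputable def PP (σ : K →+* ℂ) (𝔟 : Ideal (𝓞 K)) (f : 𝓞 K → ℂ) (κ : ℕ) (α : 𝔟) : ℂ :=
  f α * σ (α : 𝓞 K) ^ κ * (Real.exp (-(2 * Real.pi * nn 𝔟 α)) : ℂ)

theorem idT_eq (σ : K →+* ℂ) {𝔟 : Ideal (𝓞 K)} (h𝔟 : 𝔟 ≠ ⊥) (f : 𝓞 K → ℂ) (κ : ℕ) (x : ℝ)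
    (h0 : 0 < x) (h1 : x ≤ 1) (α : 𝔟) :
    idT σ 𝔟 f κ (tx x h0 h1) α = PP σ 𝔟 f κ α * (x : ℂ) ^ nn 𝔟 α := by
  have hN : absNorm 𝔟 ≠ 0 := fun h => h𝔟 (absNorm_eq_zero_iff.mp h)
  have hNC : (absNorm 𝔟 : ℂ) ≠ 0 := by exact_mod_cast hN
  unfold idT PP
  rw [← nn_mul α]
  push_cast
  rw [mul_div_assoc, div_self hNC, mul_one, tx_coe, mul_assoc (f α * _)]
  congr 1
  have hx : (x : ℂ) ^ nn 𝔟 α = Complex.exp ((nn 𝔟 α : ℂ) * (Real.log x : ℂ)) := by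
    rw [Complex.exp_nat_mul, ← Complex.ofReal_exp, Real.exp_log h0]
  rw [hx, ← Complex.exp_add]
  congr 1
  have hpi : (Real.pi : ℂ) ≠ 0 := by exact_mod_cast Real.pi_ne_zero
  push_cast
  field_simp
  linear_combination (2 * (Real.pi : ℂ) - (Real.log x : ℂ)) * (nn 𝔟 α : ℂ) * Complex.I_sq
end

/-- **[Q1]** -/
theorem Q1 : Q1Stmt := by
  intro K _ _ _ _ σ f κ s hs c hsum hzero
  classical
  have hfin := Vale.Agent.P022.H220.finShell_imag
    (Algebra.IsQuadraticExtension.finrank_eq_two ℚ K) (inferInstance : IsTotallyComplex K)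
  have hP : ∀ 𝔟 ∈ s, Summable (PP σ 𝔟 f κ) := by
    intro 𝔟 h𝔟
    have h1 := hsum 𝔟 h𝔟 (tx 1 one_pos le_rfl)
    refine h1.congr fun α => ?_
    rw [idT_eq σ (hs 𝔟 h𝔟), Complex.ofReal_one, one_pow, mul_one]
  -- the coefficient of `q`
  have hB : ∀ 𝔟 ∈ s, (∑' a : 𝔟, if nn 𝔟 a = 1 then PP σ 𝔟 f κ a else 0) =
      (Real.exp (-(2 * Real.pi)) : ℂ) *
        ∑ᶠ α ∈ {α : 𝓞 K | Ideal.span {α} = 𝔟}, f α * σ α ^ κ := by
    intro 𝔟 h𝔟
    have hT : {α : 𝓞 K | Ideal.span {α} = 𝔟}.Finite :=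
      (hfin (absNorm 𝔟)).subset fun α hα => by
        have h : Ideal.span {α} = 𝔟 := hα
        show absNorm (Ideal.span {α}) = absNorm 𝔟
        rw [h]
    rw [finsum_mem_eq_finite_toFinset_sum _ hT, Finset.mul_sum]
    have h1 : (fun a : 𝔟 => if nn 𝔟 a = 1 then PP σ 𝔟 f κ a else 0) =
        fun a : 𝔟 => (fun x : 𝓞 K => if Ideal.span {x} = 𝔟 then
          (Real.exp (-(2 * Real.pi)) : ℂ) * (f x * σ x ^ κ) else 0) (a : 𝓞 K) := by
      funext a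
      by_cases h : nn 𝔟 a = 1
      · have h' := (nn_one_iff (hs 𝔟 h𝔟) a).mp h
        simp only [h, if_true, h']
        unfold PP
        rw [h]
        push_cast
        ring_nf
      · have h' := fun h' => h ((nn_one_iff (hs 𝔟 h𝔟) a).mpr h')
        exact (if_neg h).trans (if_neg h').symm
    rw [h1]
    refine (tsum_subtype (𝔟 : Set (𝓞 K)) (fun x : 𝓞 K => if Ideal.span {x} = 𝔟 then
          (Real.exp (-(2 * Real.pi)) : ℂ) * (f x * σ x ^ κ) else 0)).trans ?_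
    have h2 : (𝔟 : Set (𝓞 K)).indicator (fun x : 𝓞 K => if Ideal.span {x} = 𝔟 then
          (Real.exp (-(2 * Real.pi)) : ℂ) * (f x * σ x ^ κ) else 0) =
        fun x : 𝓞 K => if Ideal.span {x} = 𝔟 then
          (Real.exp (-(2 * Real.pi)) : ℂ) * (f x * σ x ^ κ) else 0 := by
      rw [Set.indicator_eq_self]
      intro x hx
      rw [Function.mem_support] at hx
      by_contra hx'
      apply hx
      rw [if_neg]
      intro h
      apply hx'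
      rw [← h]
      exact Ideal.mem_span_singleton_self x
    rw [h2, tsum_eq_sum (s := hT.toFinset)]
    · apply Finset.sum_congr rfl
      intro x hx
      rw [Set.Finite.mem_toFinset] at hx
      exact if_pos hx
    · intro x hx
      rw [Set.Finite.mem_toFinset] at hx
      exact if_neg hx
  -- comparison
  have key := lin_zero (A := ∑ 𝔟 ∈ s, c 𝔟 * ∑' a : 𝔟, if nn 𝔟 a = 0 then PP σ 𝔟 f κ a else 0)
    (B := ∑ 𝔟 ∈ s, c 𝔟 * ∑' a : 𝔟, if nn 𝔟 a = 1 then PP σ 𝔟 f κ a else 0)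
    (M := ∑ 𝔟 ∈ s, ‖c 𝔟‖ * ∑' a : 𝔟, ‖PP σ 𝔟 f κ a‖) (by
      intro x h0 h1
      have hz := hzero (tx x h0 h1)
      have e1 : (∑ 𝔟 ∈ s, c 𝔟 * ∑' a : 𝔟, if nn 𝔟 a = 0 then PP σ 𝔟 f κ a else 0) +
          (x : ℂ) * (∑ 𝔟 ∈ s, c 𝔟 * ∑' a : 𝔟, if nn 𝔟 a = 1 then PP σ 𝔟 f κ a else 0) =
          -∑ 𝔟 ∈ s, c 𝔟 * (∑' a : 𝔟, PP σ 𝔟 f κ a * (x : ℂ) ^ nn 𝔟 a -
            ((∑' a : 𝔟, if nn 𝔟 a = 0 then PP σ 𝔟 f κ a else 0) +
              (x : ℂ) * ∑' a : 𝔟, if nn 𝔟 a = 1 then PP σ 𝔟 f κ a else 0)) := by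
        have e2 : ∑ 𝔟 ∈ s, c 𝔟 * ∑' a : 𝔟, PP σ 𝔟 f κ a * (x : ℂ) ^ nn 𝔟 a = 0 := by
          rw [← hz]
          apply Finset.sum_congr rfl
          intro 𝔟 h𝔟
          congr 1
          unfold thI
          exact tsum_congr fun α => (idT_eq σ (hs 𝔟 h𝔟) f κ x h0 h1 α).symm
        simp only [mul_sub, mul_add, Finset.sum_sub_distrib, Finset.sum_add_distrib]
        rw [e2, Finset.mul_sum]
        have e3 : ∀ 𝔟 ∈ s, (x : ℂ) * (c 𝔟 * ∑' a : 𝔟, if nn 𝔟 a = 1 then PP σ 𝔟 f κ a else 0) =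
            c 𝔟 * ((x : ℂ) * ∑' a : 𝔟, if nn 𝔟 a = 1 then PP σ 𝔟 f κ a else 0) := by
          intro 𝔟 _
          ring
        rw [Finset.sum_congr rfl e3]
        ring
      rw [e1, norm_neg, Finset.mul_sum]
      refine (norm_sum_le _ _).trans (Finset.sum_le_sum fun 𝔟 h𝔟 => ?_)
      rw [norm_mul]
      have := two_terms (PP σ 𝔟 f κ) (nn 𝔟) (hP 𝔟 h𝔟) h0 h1
      calc ‖c 𝔟‖ * _ ≤ ‖c 𝔟‖ * (x ^ 2 * ∑' a : 𝔟, ‖PP σ 𝔟 f κ a‖) :=
            mul_le_mul_of_nonneg_left this (norm_nonneg _)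
        _ = _ := by ring)
  have h2 := key.2
  rw [Finset.sum_congr rfl (fun 𝔟 h𝔟 => by rw [hB 𝔟 h𝔟])] at h2
  have h3 : (Real.exp (-(2 * Real.pi)) : ℂ) *
      ∑ 𝔟 ∈ s, c 𝔟 * ∑ᶠ α ∈ {α : 𝓞 K | Ideal.span {α} = 𝔟}, f α * σ α ^ κ = 0 := by
    rw [Finset.mul_sum, ← h2]
    apply Finset.sum_congr rfl
    intro 𝔟 _
    ring
  have h4 : (Real.exp (-(2 * Real.pi)) : ℂ) ≠ 0 := by
    exact_mod_cast (Real.exp_pos _).ne'
  exact (mul_eq_zero.mp h3).resolve_left h4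

end Vale.Agent.P022.H724
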